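import Vale.Agent.P078L.Defs
import Vale.Agent.P078.H291.JMain

/-!
The double commutant theorem, maximal abelian subalgebras, and the paving bound.
-/

set_option linter.all false

namespace Vale.Agent.P078L

open Filter Topology

variable {H : Type*} [NormedAddCommGroup H] [InnerProductSpace ℂ H] [CompleteSpace H]
  {M : StarSubalgebra ℂ (H →L[ℂ] H)}

theorem weak_of_bi (h : Bicommutant M) : WeaklyClosed M := by
  have e : {T : H →WOT[ℂ] H | T.toCLM ∈ M} =
      ⋂ c ∈ Set.centralizer (M : Set (H →L[ℂ] H)), ⋂ u : H, ⋂ v : H,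
        {T : H →WOT[ℂ] H | inner ℂ (star c u) (T v) = inner ℂ u (T (c v))} := by
    ext T
    simp only [Set.mem_setOf_eq, Set.mem_iInter]
    have e0 : T.toCLM ∈ M ↔ ∀ c ∈ Set.centralizer (M : Set (H →L[ℂ] H)),
        c * T.toCLM = T.toCLM * c := by
      rw [← SetLike.mem_coe]
      conv_lhs => rw [← h]
      exact Iff.rfl
    rw [e0]
    refine forall₂_congr fun c _ => ?_
    constructor
    · intro hc u v
      rw [ContinuousLinearMap.star_eq_adjoint, ContinuousLinearMap.adjoint_inner_left]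
      exact congrArg (fun S : H →L[ℂ] H => inner ℂ u (S v)) hc
    · intro hc
      ext v
      refine ext_inner_left ℂ fun u => ?_
      have := hc u v
      rw [ContinuousLinearMap.star_eq_adjoint, ContinuousLinearMap.adjoint_inner_left] at this
      exact this
  unfold WeaklyClosed
  rw [e]
  have k : ∀ u v : H, Continuous fun T : H →WOT[ℂ] H => inner ℂ u (T v) := fun u v =>
    (ContinuousLinearMapWOT.continuous_iff.1 continuous_id) v u
  exact isClosed_biInter fun c _ => isClosed_iInter fun u => isClosed_iInter fun v =>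
    isClosed_eq (k _ _) (k _ _)

theorem strong_of_weak (h : WeaklyClosed M) : StronglyClosed M := by
  intro T hT
  set S : Set (H → H) := {f : H → H | ∃ a ∈ M, f = a} with hS
  have hne : NeBot (comap ((↑) : S → H → H) (𝓝 (T : H → H))) := mem_closure_iff_comap_neBot.1 hT
  choose a ha e using fun f : S => f.2
  have h1 : Tendsto (fun f : S => ContinuousLinearMapWOT.ofCLM (a f))
      (comap ((↑) : S → H → H) (𝓝 (T : H → H))) (𝓝 (ContinuousLinearMapWOT.ofCLM T)) := by
    rw [ContinuousLinearMapWOT.tendsto_iff_forall_inner_apply_tendsto]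
    intro v u
    refine (tendsto_const_nhds (x := u)).inner (𝕜 := ℂ) ?_
    have h2 := ((continuous_apply v).tendsto (T : H → H)).comp
      (tendsto_comap (f := ((↑) : S → H → H)))
    refine h2.congr fun f => ?_
    show (f : H → H) v = a f v
    rw [e f]
  have h' : IsClosed {T : H →WOT[ℂ] H | T.toCLM ∈ M} := h
  exact h'.mem_of_tendsto h1 (Eventually.of_forall ha)

theorem bi_of_strong (h : StronglyClosed M) : Bicommutant M := by
  refine le_antisymm (fun T hT => h T ?_) Set.subset_centralizer_centralizer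
  rw [mem_closure_iff_nhds]
  intro U hU
  obtain ⟨I, hI, t, ht, hIU⟩ := (mem_pi.1 (by rwa [nhds_pi] at hU))
  obtain ⟨m, v, hv⟩ : ∃ (m : ℕ) (v : Fin m → H), I = Set.range v := by
    obtain ⟨m, v, hv⟩ := hI.fin_param
    exact ⟨m, v, hv.2.symm⟩
  let S : Submodule ℂ (PiLp 2 fun _ : Fin m => H) :=
    { carrier := {w | ∃ y ∈ M, ∀ k, w k = y (v k)}
      add_mem' := by
        rintro _ _ ⟨y, hy, e⟩ ⟨y', hy', e'⟩
        exact ⟨y + y', add_mem hy hy', fun k => by simp [e, e']⟩
      zero_mem' := ⟨0, zero_mem _, fun k => rfl⟩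
      smul_mem' := by
        rintro c _ ⟨y, hy, e⟩
        exact ⟨c • y, M.smul_mem hy c, fun k => by simp [e]⟩ }
  have hw : (WithLp.toLp 2 fun k => T (v k)) ∈ S.topologicalClosure := by
    rw [← Submodule.orthogonal_orthogonal_eq_closure, Submodule.mem_orthogonal]
    intro u hu
    rw [PiLp.inner_apply]
    refine P078.L.weak_bicommutant M (fun c hc => hT c fun y hy => (hc y hy).symm)
      (fun k => u k) v fun y hy => ?_
    have := (Submodule.mem_orthogonal' S u).1 hu (WithLp.toLp 2 fun k => y (v k))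
      ⟨y, hy, fun k => rfl⟩
    rwa [PiLp.inner_apply] at this
  have hN : {w : PiLp 2 fun _ : Fin m => H | ∀ k, w k ∈ t (v k)} ∈
      𝓝 (WithLp.toLp 2 fun k => T (v k)) := by
    rw [Set.setOf_forall, Filter.iInter_mem]
    intro k
    exact (PiLp.continuous_apply 2 (fun _ : Fin m => H) k).continuousAt.preimage_mem_nhds
      (ht (v k))
  obtain ⟨w, hw1, y, hy, e⟩ := mem_closure_iff_nhds.1 hw _ hN
  refine ⟨y, hIU ?_, y, hy, rfl⟩
  intro x hx
  rw [hv] at hx
  obtain ⟨k, rfl⟩ := hx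
  rw [← e k]
  exact hw1 k

theorem tfae (M : StarSubalgebra ℂ (H →L[ℂ] H)) :
    (WeaklyClosed M ↔ StronglyClosed M) ∧ (StronglyClosed M ↔ Bicommutant M) :=
  ⟨⟨strong_of_weak, fun h => weak_of_bi (bi_of_strong h)⟩,
    ⟨bi_of_strong, fun h => strong_of_weak (weak_of_bi h)⟩⟩

/-- every abelian self-adjoint subalgebra lies in a maximal one -/
theorem exists_masa {B : NonUnitalStarSubalgebra ℂ (H →L[ℂ] H)} (hB : AbelianIn M B) :
    ∃ A, B ≤ A ∧ Maximal (AbelianIn M) A := by
  refine zorn_le_nonempty₀ {A | AbelianIn M A} (fun c hc hch y hy => ?_) B hB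
  have : Nonempty c := ⟨⟨y, hy⟩⟩
  have hd : Directed (· ≤ ·) fun A : c => (A : NonUnitalStarSubalgebra ℂ (H →L[ℂ] H)) :=
    hch.directedOn.directed_val
  have key : ∀ x, x ∈ (⨆ A : c, (A : NonUnitalStarSubalgebra ℂ (H →L[ℂ] H))) → ∃ A : c, x ∈ A.1 := by
    intro x hx
    rw [← SetLike.mem_coe, NonUnitalStarSubalgebra.coe_iSup_of_directed hd] at hx
    exact Set.mem_iUnion.1 hx
  refine ⟨⨆ A : c, A.1, ⟨fun x hx => ?_, fun x hx z hz => ?_⟩,
    fun A hA => le_iSup (fun A : c => A.1) ⟨A, hA⟩⟩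
  · obtain ⟨A, hA⟩ := key x hx
    exact (hc A.2).1 x hA
  · obtain ⟨A, hA⟩ := key x hx
    obtain ⟨A', hA'⟩ := key z hz
    obtain ⟨C, h1, h2⟩ := hd A A'
    exact (hc C.2).2 x (h1 hA) z (h2 hA')

variable {A : NonUnitalStarSubalgebra ℂ (H →L[ℂ] H)}

theorem mem_of_sa (hA : Maximal (AbelianIn M) A) {x : H →L[ℂ] H} (hx : x ∈ M) (hs : star x = x)
    (hc : ∀ a ∈ A, a * x = x * a) : x ∈ A := by
  set s : Set (H →L[ℂ] H) := insert x A with hsd
  have c1 : ∀ u ∈ s, ∀ w ∈ s, u * w = w * u := by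
    rintro u (rfl | hu) w (rfl | hw)
    · rfl
    · exact (hc w hw).symm
    · exact hc u hu
    · exact hA.prop.2 u hu w hw
  have c2 : ∀ u ∈ s, star u ∈ s := by
    rintro u (rfl | hu)
    · exact Or.inl hs
    · exact Or.inr (star_mem hu)
  have c3 := NonUnitalStarAlgebra.isMulCommutative_adjoin ℂ c1
    fun u hu w hw => c1 u hu _ (c2 w hw)
  have c4 : NonUnitalStarAlgebra.adjoin ℂ s ≤ M.toNonUnitalStarSubalgebra := by
    refine NonUnitalStarAlgebra.adjoin_le ?_
    rintro u (rfl | hu)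
    · exact hx
    · exact hA.prop.1 u hu
  have c5 : AbelianIn M (NonUnitalStarAlgebra.adjoin ℂ s) :=
    ⟨fun u hu => c4 hu, fun u hu w hw =>
      congrArg Subtype.val (c3.is_comm.comm (⟨u, hu⟩ : NonUnitalStarAlgebra.adjoin ℂ s) ⟨w, hw⟩)⟩
  refine hA.le_of_ge c5 (fun u hu => ?_) (NonUnitalStarAlgebra.subset_adjoin ℂ s (Or.inl rfl))
  exact NonUnitalStarAlgebra.subset_adjoin ℂ s (Or.inr hu)

/-- a maximal abelian self-adjoint subalgebra contains its relative commutant -/
theorem mem_of_comm (hA : Maximal (AbelianIn M) A) {x : H →L[ℂ] H} (hx : x ∈ M)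
    (hc : ∀ a ∈ A, a * x = x * a) : x ∈ A := by
  have hc' : ∀ a ∈ A, a * star x = star x * a := fun a ha => by
    have := congrArg star (hc (star a) (star_mem ha))
    rw [star_mul, star_mul, star_star] at this
    exact this.symm
  have h1 : x + star x ∈ A := mem_of_sa hA (add_mem hx (star_mem hx))
    (by rw [star_add, star_star, add_comm])
    fun a ha => by rw [mul_add, add_mul, hc a ha, hc' a ha]
  have h2 : Complex.I • (x - star x) ∈ A :=
    mem_of_sa hA (M.smul_mem (sub_mem hx (star_mem hx)) _)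
      (by rw [star_smul, star_sub, star_star, Complex.star_def, Complex.conj_I, neg_smul,
        ← smul_neg, neg_sub])
      fun a ha => by rw [mul_smul_comm, smul_mul_assoc, mul_sub, sub_mul, hc a ha, hc' a ha]
  have e : x = (2⁻¹ : ℂ) • ((x + star x) + (-Complex.I) • (Complex.I • (x - star x))) := by
    rw [smul_smul, neg_mul, Complex.I_mul_I, neg_neg, one_smul]
    module
  rw [e]
  exact SMulMemClass.smul_mem _ (add_mem h1 (SMulMemClass.smul_mem _ h2))

/-- a maximal abelian self-adjoint subalgebra of a von Neumann algebra is a von Neumann algebra -/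
noncomputable def vn (hM : Bicommutant M) (hA : Maximal (AbelianIn M) A) : VonNeumannAlgebra H where
  toStarSubalgebra := A.toStarSubalgebra
    (mem_of_comm hA (one_mem M) fun a _ => by rw [mul_one, one_mul])
  centralizer_centralizer' := by
    refine le_antisymm (fun y hy => ?_) Set.subset_centralizer_centralizer
    refine mem_of_comm hA ?_ fun a ha => hy a fun b hb => hA.prop.2 b hb a ha
    rw [← SetLike.mem_coe, ← hM]
    exact fun c hc => hy c fun b hb => hc b (hA.prop.1 b hb)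

theorem bound (hM : Bicommutant M) (hA : Maximal (AbelianIn M) A) {ε : ℝ} (h0 : 0 < ε)
    (h1 : ε < 1) : ∃ n : ℕ, pavingNumber M A ε = n ∧ (n : ℝ) ≤ 1200003 / ε ^ 2 := by
  have hm : P078.SO.IsMASA (vn hM hA) ⟨M, hM⟩ :=
    ⟨hA.prop.1, hA.prop.2, fun x hx hc => mem_of_comm hA hx hc⟩
  have h2 := P078.WG.joint_upper hm (le_refl 1) h0 h1
  rw [P078.WG.joint_one] at h2
  have h3 : pavingNumber M A ε ≤ P078.SO.pavingNumber ⟨M, hM⟩ (vn hM hA) 1 ε := by
    refine le_iInf₂ fun r hr => iInf₂_le (f := fun (r : ℕ) (_ : r ∈ {r : ℕ | 1 ≤ r ∧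
      ∀ x ∈ M, IsSelfAdjoint x → SOPavable M A x ε r}) => (r : ℕ∞)) r ⟨hr.1, fun x hx hs => ?_⟩
    intro F δ hδ
    obtain ⟨p, a, q, hp, ho, hs', haA, -, has, han, hqM, -, hqp, hqF, hq⟩ :=
      hr.2 x hx hs (by rw [one_mul, mul_one]) F (fun _ _ => rfl) δ hδ
    exact ⟨p, a, q, hp, ho, hs', haA, has, han, hqM, hqp, hqF, hq⟩
  have h4 := h3.trans h2
  obtain ⟨n, hn⟩ := ENat.ne_top_iff_exists.1 (ne_top_of_le_ne_top (ENat.coe_ne_top _) h4)
  refine ⟨n, hn.symm, ?_⟩
  rw [← hn, Nat.cast_le] at h4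
  have h5 : (0 : ℝ) < ε ^ 2 := by positivity
  have h6 : ε ^ 2 ≤ 1 := by nlinarith
  have h7 : (1 : ℝ) ≤ 1 / ε ^ 2 := by rw [le_div_iff₀ h5]; linarith
  have h8 := (Nat.ceil_lt_add_one (show (0 : ℝ) ≤ 1200002 * ((1 : ℕ) : ℝ) ^ 2 / ε ^ 2 by
    positivity)).le
  have h9 : (n : ℝ) ≤ (⌈1200002 * ((1 : ℕ) : ℝ) ^ 2 / ε ^ 2⌉₊ : ℕ) := by exact_mod_cast h4
  have h10 : (1200003 : ℝ) / ε ^ 2 = 1200002 * ((1 : ℕ) : ℝ) ^ 2 / ε ^ 2 + 1 / ε ^ 2 := by
    push_cast; ring
  linarith

end Vale.Agent.P078L
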