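import Mathlib.Analysis.VonNeumannAlgebra.Basic
import Mathlib.Analysis.InnerProductSpace.WeakOperatorTopology
import Mathlib.Algebra.Star.StarProjection
import Mathlib.Algebra.Star.NonUnitalSubalgebra
import Mathlib.Data.ENat.Lattice

/-!
The objects of the paving problem of Popa and Vaes, as in the problem text.
-/

namespace Vale.Agent.P078L

variable {H : Type*} [NormedAddCommGroup H] [InnerProductSpace ℂ H] [CompleteSpace H]

/-- `M` is closed in the weak operator topology. -/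
def WeaklyClosed (M : StarSubalgebra ℂ (H →L[ℂ] H)) : Prop :=
  IsClosed {T : H →WOT[ℂ] H | T.toCLM ∈ M}

/-- `M` is closed in the strong operator topology (pointwise norm convergence on `H`). -/
def StronglyClosed (M : StarSubalgebra ℂ (H →L[ℂ] H)) : Prop :=
  ∀ T : H →L[ℂ] H, (T : H → H) ∈ closure {f : H → H | ∃ a ∈ M, f = a} → T ∈ M

/-- `M` is its own double commutant. -/
def Bicommutant (M : StarSubalgebra ℂ (H →L[ℂ] H)) : Prop :=
  Set.centralizer (Set.centralizer (M : Set (H →L[ℂ] H))) = M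

/-- `B` is an abelian self-adjoint subalgebra of `M` (not assumed unital or closed). -/
def AbelianIn (M : StarSubalgebra ℂ (H →L[ℂ] H))
    (B : NonUnitalStarSubalgebra ℂ (H →L[ℂ] H)) : Prop :=
  (∀ x ∈ B, x ∈ M) ∧ ∀ x ∈ B, ∀ y ∈ B, x * y = y * x

/-- `x` is `(ε, r)` so-pavable over `A` in `M`. -/
def SOPavable (M : StarSubalgebra ℂ (H →L[ℂ] H)) (A : NonUnitalStarSubalgebra ℂ (H →L[ℂ] H))
    (x : H →L[ℂ] H) (ε : ℝ) (r : ℕ) : Prop :=
  ∀ (F : Finset H) (δ : ℝ), 0 < δ →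
    ∃ (p : Fin r → (H →L[ℂ] H)) (a q : H →L[ℂ] H),
      (∀ i, p i ∈ A ∧ IsStarProjection (p i)) ∧ (∀ i j, i ≠ j → p i * p j = 0) ∧
      ∑ i, p i = 1 ∧
      a ∈ A ∧ IsSelfAdjoint a ∧ ‖a‖ ≤ ‖x‖ ∧
      q ∈ M ∧ IsStarProjection q ∧
      (∀ ξ ∈ F, ‖(1 - q) ξ‖ < δ) ∧
      ‖q * (∑ i, p i * x * p i - a) * q‖ ≤ ε * ‖x‖

/-- `n_{A ⊆ M}(ε)`: the least `r ≥ 1` such that every self-adjoint `x ∈ M` is `(ε, r)` so-pavable
(`⊤` if there is none). -/
noncomputable def pavingNumber (M : StarSubalgebra ℂ (H →L[ℂ] H))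
    (A : NonUnitalStarSubalgebra ℂ (H →L[ℂ] H)) (ε : ℝ) : ℕ∞ :=
  ⨅ r ∈ {r : ℕ | 1 ≤ r ∧ ∀ x ∈ M, IsSelfAdjoint x → SOPavable M A x ε r}, (r : ℕ∞)

end Vale.Agent.P078L
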